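import Mathlib
import Crest.Prelude.Def_AsymptoticConvexity
import Crest.Prelude.Def_Diamond

set_option autoImplicit false

/-!
# Distortion of countably branching diamonds (package [E] of row 125, helper52)

Main result: `Crest.Agent.Helper52.diamond_distortion`.  If the maximum-based midpoint modulus of
a real Banach space `E` is at least `√(1 + t²/4) - 1` for every `t ∈ (0, 1]`, then every map of
the depth-`k` countably branching diamond graph into `E` of distortion at most `D` satisfies
`1 + k/4 ≤ D²`.  Only Prelude definitions are used.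
-/

namespace Crest.Agent.Helper52

open Crest.AnalysisR

/-! ### Combinatorics of the diamond graphs -/

theorem diamondSrc_succ_false (k : ℕ) (e : DiamondEdge k) (i : ℕ) :
    diamondSrc (k + 1) ((e, i, false) : DiamondEdge (k + 1)) = Sum.inl (diamondSrc k e) := rfl

theorem diamondSrc_succ_true (k : ℕ) (e : DiamondEdge k) (i : ℕ) :
    diamondSrc (k + 1) ((e, i, true) : DiamondEdge (k + 1)) = Sum.inr (e, i) := rfl

theorem diamondTgt_succ_false (k : ℕ) (e : DiamondEdge k) (i : ℕ) :
    diamondTgt (k + 1) ((e, i, false) : DiamondEdge (k + 1)) = Sum.inr (e, i) := rfl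

theorem diamondTgt_succ_true (k : ℕ) (e : DiamondEdge k) (i : ℕ) :
    diamondTgt (k + 1) ((e, i, true) : DiamondEdge (k + 1)) = Sum.inl (diamondTgt k e) := rfl

theorem diamond_src_ne_tgt : ∀ (k : ℕ) (e : DiamondEdge k), diamondSrc k e ≠ diamondTgt k e
  | 0, _ => Bool.false_ne_true
  | k + 1, (e, i, b) => by
      cases b
      · rw [diamondSrc_succ_false, diamondTgt_succ_false]
        exact Sum.inl_ne_inr
      · rw [diamondSrc_succ_true, diamondTgt_succ_true]
        exact Sum.inr_ne_inl

theorem diamond_adj_src_tgt (k : ℕ) (e : DiamondEdge k) :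
    (diamondGraph k).Adj (diamondSrc k e) (diamondTgt k e) := by
  rw [diamondGraph, SimpleGraph.fromRel_adj]
  exact ⟨diamond_src_ne_tgt k e, Or.inl ⟨e, rfl, rfl⟩⟩

theorem diamond_adj_iff (k : ℕ) (u v : DiamondVertex k) :
    (diamondGraph k).Adj u v ↔
      ∃ e : DiamondEdge k, (diamondSrc k e = u ∧ diamondTgt k e = v) ∨
        (diamondSrc k e = v ∧ diamondTgt k e = u) := by
  rw [diamondGraph, SimpleGraph.fromRel_adj]
  constructor
  · rintro ⟨-, ⟨e, h1, h2⟩ | ⟨e, h1, h2⟩⟩
    · exact ⟨e, Or.inl ⟨h1, h2⟩⟩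
    · exact ⟨e, Or.inr ⟨h1, h2⟩⟩
  · rintro ⟨e, ⟨h1, h2⟩ | ⟨h1, h2⟩⟩
    · exact ⟨by rw [← h1, ← h2]; exact diamond_src_ne_tgt k e, Or.inl ⟨e, h1, h2⟩⟩
    · exact ⟨by rw [← h1, ← h2]; exact (diamond_src_ne_tgt k e).symm, Or.inr ⟨e, h1, h2⟩⟩

/-- In `D (k+1)`, the middle vertex `(e, i)` is adjacent to the (old) source of `e`. -/
theorem diamond_adj_inl_src_inr (k : ℕ) (e : DiamondEdge k) (i : ℕ) :
    (diamondGraph (k + 1)).Adj (Sum.inl (diamondSrc k e)) (Sum.inr (e, i)) :=
  diamond_adj_src_tgt (k + 1) ((e, i, false) : DiamondEdge (k + 1))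

/-- In `D (k+1)`, the middle vertex `(e, i)` is adjacent to the (old) target of `e`. -/
theorem diamond_adj_inr_inl_tgt (k : ℕ) (e : DiamondEdge k) (i : ℕ) :
    (diamondGraph (k + 1)).Adj (Sum.inr (e, i)) (Sum.inl (diamondTgt k e)) :=
  diamond_adj_src_tgt (k + 1) ((e, i, true) : DiamondEdge (k + 1))

/-- Characterisation of adjacency in `D (k+1)`. -/
theorem diamond_adj_succ_cases (k : ℕ) (w w' : DiamondVertex (k + 1))
    (h : (diamondGraph (k + 1)).Adj w w') :
    (∃ (e : DiamondEdge k) (i : ℕ), (w = Sum.inl (diamondSrc k e) ∨ w = Sum.inl (diamondTgt k e)) ∧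
        w' = Sum.inr (e, i)) ∨
    (∃ (e : DiamondEdge k) (i : ℕ), (w' = Sum.inl (diamondSrc k e) ∨ w' = Sum.inl (diamondTgt k e)) ∧
        w = Sum.inr (e, i)) := by
  rw [diamond_adj_iff] at h
  obtain ⟨⟨e, i, b⟩, h⟩ := h
  cases b
  · rw [diamondSrc_succ_false, diamondTgt_succ_false] at h
    rcases h with ⟨h1, h2⟩ | ⟨h1, h2⟩
    · exact Or.inl ⟨e, i, Or.inl h1.symm, h2.symm⟩
    · exact Or.inr ⟨e, i, Or.inl h1.symm, h2.symm⟩
  · rw [diamondSrc_succ_true, diamondTgt_succ_true] at h
    rcases h with ⟨h1, h2⟩ | ⟨h1, h2⟩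
    · exact Or.inr ⟨e, i, Or.inr h2.symm, h1.symm⟩
    · exact Or.inl ⟨e, i, Or.inr h2.symm, h1.symm⟩

theorem diamond_not_adj_inl_inl (k : ℕ) (u v : DiamondVertex k) :
    ¬ (diamondGraph (k + 1)).Adj (Sum.inl u) (Sum.inl v) := by
  intro h
  rcases diamond_adj_succ_cases k _ _ h with ⟨e, i, -, h2⟩ | ⟨e, i, -, h2⟩ <;>
    exact Sum.inl_ne_inr h2

theorem diamond_not_adj_inr_inr (k : ℕ) (p q : DiamondEdge k × ℕ) :
    ¬ (diamondGraph (k + 1)).Adj (Sum.inr p) (Sum.inr q) := by
  intro h
  rcases diamond_adj_succ_cases k _ _ h with ⟨e, i, h1, -⟩ | ⟨e, i, h1, -⟩ <;>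
    rcases h1 with h1 | h1 <;> exact Sum.inr_ne_inl h1

theorem diamond_connected : ∀ k : ℕ, (diamondGraph k).Connected
  | 0 => by
      have hadj : (diamondGraph 0).Adj false true := diamond_adj_src_tgt 0 ()
      have : Nonempty (DiamondVertex 0) := ⟨false⟩
      refine ⟨fun u v => ?_⟩
      have key : ∀ w : DiamondVertex 0, (diamondGraph 0).Reachable false w := by
        intro w
        cases w
        · exact SimpleGraph.Reachable.refl _
        · exact hadj.reachable
      exact (key u).symm.trans (key v)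
  | k + 1 => by
      have ih := diamond_connected k
      obtain ⟨u0⟩ := ih.nonempty
      have : Nonempty (DiamondVertex (k + 1)) := ⟨Sum.inl u0⟩
      have hinl : ∀ u v : DiamondVertex k, (diamondGraph k).Reachable u v →
          (diamondGraph (k + 1)).Reachable (Sum.inl u) (Sum.inl v) := by
        intro u v huv
        obtain ⟨p⟩ := huv
        induction p with
        | nil => exact SimpleGraph.Reachable.refl _
        | cons hadj _ ih' =>
          refine SimpleGraph.Reachable.trans ?_ ih'
          rw [diamond_adj_iff] at hadj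
          obtain ⟨e, ⟨h1, h2⟩ | ⟨h1, h2⟩⟩ := hadj
          · rw [← h1, ← h2]
            exact (diamond_adj_inl_src_inr k e 0).reachable.trans
              (diamond_adj_inr_inl_tgt k e 0).reachable
          · rw [← h1, ← h2]
            exact ((diamond_adj_inl_src_inr k e 0).reachable.trans
              (diamond_adj_inr_inl_tgt k e 0).reachable).symm
      have key : ∀ w : DiamondVertex (k + 1),
          (diamondGraph (k + 1)).Reachable (Sum.inl u0) w := by
        intro w
        cases w with
        | inl u => exact hinl u0 u (ih.preconnected u0 u)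
        | inr p =>
          obtain ⟨e, i⟩ := p
          exact (hinl u0 (diamondSrc k e) (ih.preconnected _ _)).trans
            (diamond_adj_inl_src_inr k e i).reachable
      exact ⟨fun u v => (key u).symm.trans (key v)⟩


/-- A function that increases by at most one along edges increases by at most the length along
a walk. -/
theorem walk_potential_le {V : Type*} {G : SimpleGraph V} (h : V → ℕ)
    (hh : ∀ a b, G.Adj a b → h b ≤ h a + 1) {a b : V} (p : G.Walk a b) :
    h b ≤ h a + p.length := by
  induction p with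
  | nil => simp
  | cons hadj q ih =>
    have := hh _ _ hadj
    rw [SimpleGraph.Walk.length_cons]
    omega

/-- Old vertices of `D (k+1)` are at least twice as far apart as in `D k`. -/
theorem diamond_two_mul_dist_le (k : ℕ) (u v : DiamondVertex k) :
    2 * (diamondGraph k).dist u v ≤ (diamondGraph (k + 1)).dist (Sum.inl u) (Sum.inl v) := by
  classical
  have hk := diamond_connected k
  have hk1 := diamond_connected (k + 1)
  let h : DiamondVertex (k + 1) → ℕ := fun w =>
    Sum.elim (fun w' => 2 * (diamondGraph k).dist u w')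
      (fun p => min (2 * (diamondGraph k).dist u (diamondSrc k p.1))
        (2 * (diamondGraph k).dist u (diamondTgt k p.1)) + 1) w
  have hst : ∀ e : DiamondEdge k,
      (diamondGraph k).dist u (diamondTgt k e) ≤ (diamondGraph k).dist u (diamondSrc k e) + 1 ∧
      (diamondGraph k).dist u (diamondSrc k e) ≤ (diamondGraph k).dist u (diamondTgt k e) + 1 := by
    intro e
    have h1 : (diamondGraph k).dist (diamondSrc k e) (diamondTgt k e) = 1 :=
      SimpleGraph.dist_eq_one_iff_adj.mpr (diamond_adj_src_tgt k e)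
    have h2 : (diamondGraph k).dist (diamondTgt k e) (diamondSrc k e) = 1 := by
      rw [SimpleGraph.dist_comm]; exact h1
    constructor
    · have := hk.dist_triangle (u := u) (v := diamondSrc k e) (w := diamondTgt k e)
      omega
    · have := hk.dist_triangle (u := u) (v := diamondTgt k e) (w := diamondSrc k e)
      omega
  have hh : ∀ a b, (diamondGraph (k + 1)).Adj a b → h b ≤ h a + 1 := by
    intro a b hab
    rcases diamond_adj_succ_cases k a b hab with ⟨e, i, ha, hb⟩ | ⟨e, i, hb, ha⟩
    · subst hb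
      rcases ha with ha | ha <;> subst ha <;> simp only [h, Sum.elim_inl, Sum.elim_inr] <;> omega
    · subst ha
      have := hst e
      rcases hb with hb | hb <;> subst hb <;> simp only [h, Sum.elim_inl, Sum.elim_inr] <;> omega
  obtain ⟨p, hp⟩ := hk1.exists_walk_length_eq_dist (Sum.inl u) (Sum.inl v)
  have := walk_potential_le h hh p
  simp only [h, Sum.elim_inl, SimpleGraph.dist_self, mul_zero, zero_add] at this
  omega

theorem diamond_dist_src_tgt (k : ℕ) (e : DiamondEdge k) :
    (diamondGraph k).dist (diamondSrc k e) (diamondTgt k e) = 1 :=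
  SimpleGraph.dist_eq_one_iff_adj.mpr (diamond_adj_src_tgt k e)

theorem diamond_dist_inl_src_inr (k : ℕ) (e : DiamondEdge k) (i : ℕ) :
    (diamondGraph (k + 1)).dist (Sum.inl (diamondSrc k e)) (Sum.inr (e, i)) = 1 :=
  SimpleGraph.dist_eq_one_iff_adj.mpr (diamond_adj_inl_src_inr k e i)

theorem diamond_dist_inr_inl_tgt (k : ℕ) (e : DiamondEdge k) (i : ℕ) :
    (diamondGraph (k + 1)).dist (Sum.inr (e, i)) (Sum.inl (diamondTgt k e)) = 1 :=
  SimpleGraph.dist_eq_one_iff_adj.mpr (diamond_adj_inr_inl_tgt k e i)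

theorem diamond_two_le_dist_inr_inr (k : ℕ) (e : DiamondEdge k) {i j : ℕ} (hij : i ≠ j) :
    2 ≤ (diamondGraph (k + 1)).dist (Sum.inr (e, i)) (Sum.inr (e, j)) := by
  have hne : (Sum.inr (e, i) : DiamondVertex (k + 1)) ≠ Sum.inr (e, j) := by
    intro h
    have h' := Sum.inr_injective h
    exact hij (Prod.mk.inj h').2
  exact (diamond_connected (k + 1)).one_lt_dist_of_ne_of_not_adj hne
    (diamond_not_adj_inr_inr k _ _)

theorem diamond_two_le_dist_inl_src_inl_tgt (k : ℕ) (e : DiamondEdge k) :
    2 ≤ (diamondGraph (k + 1)).dist (Sum.inl (diamondSrc k e)) (Sum.inl (diamondTgt k e)) := by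
  have := diamond_two_mul_dist_le k (diamondSrc k e) (diamondTgt k e)
  rw [diamond_dist_src_tgt] at this
  omega

/-- A map into a normed group that moves by at most `c` along edges moves by at most
`c * length` along a walk. -/
theorem walk_norm_le {V : Type*} {G : SimpleGraph V} {X : Type*} [SeminormedAddCommGroup X]
    (g : V → X) (c : ℝ) (hg : ∀ a b, G.Adj a b → ‖g a - g b‖ ≤ c) {a b : V} (p : G.Walk a b) :
    ‖g a - g b‖ ≤ c * p.length := by
  induction p with
  | nil => simp
  | @cons u v w hadj q ih =>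
    have h1 := hg _ _ hadj
    rw [SimpleGraph.Walk.length_cons]
    push_cast
    calc ‖g u - g w‖ = ‖(g u - g v) + (g v - g w)‖ := by abel_nf
      _ ≤ ‖g u - g v‖ + ‖g v - g w‖ := norm_add_le _ _
      _ ≤ c + c * q.length := add_le_add h1 ih
      _ = c * (q.length + 1) := by ring


/-! ### Analytic part -/

section Analytic

variable {X : Type*} [NormedAddCommGroup X] [NormedSpace ℝ X]

/-- A bounded sequence has two distinct terms whose difference is `δ`-close to a given closed
subspace of finite codimension. -/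
theorem exists_pair_close_mod (S : Submodule ℝ X) (hS : IsClosed (S : Set X))
    (hfin : FiniteDimensional ℝ (X ⧸ S)) (z : ℕ → X) (C : ℝ) (hz : ∀ i, ‖z i‖ ≤ C)
    {δ : ℝ} (hδ : 0 < δ) :
    ∃ i j, i ≠ j ∧ ∃ y ∈ S, ‖z i - z j - y‖ < δ := by
  have := hS
  have := hfin
  have : ProperSpace (X ⧸ S) := FiniteDimensional.proper ℝ (X ⧸ S)
  let q : ℕ → X ⧸ S := fun i => Submodule.Quotient.mk (z i)
  have hq : ∀ i, q i ∈ Metric.closedBall (0 : X ⧸ S) C := by
    intro i
    rw [mem_closedBall_zero_iff]
    exact (Submodule.Quotient.norm_mk_le S (z i)).trans (hz i)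
  obtain ⟨a, -, φ, hφ, hlim⟩ :=
    (isCompact_closedBall (0 : X ⧸ S) C).tendsto_subseq hq
  have hev : ∀ᶠ n in Filter.atTop, dist ((q ∘ φ) n) a < δ / 2 :=
    (Metric.tendsto_nhds.mp hlim) (δ / 2) (by positivity)
  obtain ⟨N, hN⟩ := Filter.eventually_atTop.mp hev
  have h1 := hN N le_rfl
  have h2 := hN (N + 1) (Nat.le_succ N)
  have hd : dist (q (φ N)) (q (φ (N + 1))) < δ := by
    calc dist (q (φ N)) (q (φ (N + 1))) ≤ dist (q (φ N)) a + dist (q (φ (N + 1))) a :=
          dist_triangle_right _ _ _
      _ < δ / 2 + δ / 2 := add_lt_add h1 h2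
      _ = δ := by ring
  refine ⟨φ N, φ (N + 1), (hφ (Nat.lt_succ_self N)).ne, ?_⟩
  rw [dist_eq_norm] at hd
  have hmk : q (φ N) - q (φ (N + 1)) = Submodule.Quotient.mk (z (φ N) - z (φ (N + 1))) := by
    simp [q, Submodule.Quotient.mk_sub]
  rw [hmk] at hd
  obtain ⟨m, hm, hm'⟩ := Submodule.Quotient.norm_mk_lt
    (Submodule.Quotient.mk (z (φ N) - z (φ (N + 1))) : X ⧸ S) (sub_pos.mpr hd)
  refine ⟨z (φ N) - z (φ (N + 1)) - m, ?_, ?_⟩
  · exact (Submodule.Quotient.eq S).mp hm.symm
  · have : z (φ N) - z (φ (N + 1)) - (z (φ N) - z (φ (N + 1)) - m) = m := by abel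
    rw [this]
    linarith

/-- The hypothesis on the space: the maximum-based midpoint modulus at every `t ∈ (0, 1]` is at
least `√(1 + t²/4) - 1`, written with submodules. -/
def MaxMid (X : Type*) [NormedAddCommGroup X] [NormedSpace ℝ X] : Prop :=
  ∀ t : ℝ, 0 < t → t ≤ 1 → ∀ x : X, ‖x‖ = 1 → ∀ η : ℝ, 0 < η →
    ∃ S : Submodule ℝ X, IsClosed (S : Set X) ∧ FiniteDimensional ℝ (X ⧸ S) ∧
      ∀ y ∈ S, ‖y‖ = 1 →
        Real.sqrt (1 + t ^ 2 / 4) - 1 - η ≤ max ‖x + t • y‖ ‖x - t • y‖ - 1

/-- Convexity along a line: if `‖y‖ = 1`, `0 < s ≤ l` then `‖x + s y‖` is at most the maximum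
of `‖x + l y‖` and `‖x - l y‖`. -/
theorem norm_add_smul_le_max (x y : X) {s l : ℝ} (hs : 0 ≤ s) (hsl : s ≤ l) (hl : 0 < l) :
    ‖x + s • y‖ ≤ max ‖x + l • y‖ ‖x - l • y‖ := by
  have ha : 0 ≤ (l + s) / (2 * l) := by positivity
  have hb : 0 ≤ (l - s) / (2 * l) := by
    apply div_nonneg <;> linarith
  have hab : (l + s) / (2 * l) + (l - s) / (2 * l) = 1 := by
    field_simp
    ring
  have hcoef : (l + s) / (2 * l) * l - (l - s) / (2 * l) * l = s := by
    field_simp
    ring
  have key : x + s • y = ((l + s) / (2 * l)) • (x + l • y) + ((l - s) / (2 * l)) • (x - l • y) := by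
    have : ((l + s) / (2 * l)) • (x + l • y) + ((l - s) / (2 * l)) • (x - l • y)
        = ((l + s) / (2 * l) + (l - s) / (2 * l)) • x
          + ((l + s) / (2 * l) * l - (l - s) / (2 * l) * l) • y := by
      simp only [smul_add, smul_sub, add_smul, sub_smul, mul_smul]
      abel
    rw [this, hab, hcoef, one_smul]
  rw [key]
  calc ‖((l + s) / (2 * l)) • (x + l • y) + ((l - s) / (2 * l)) • (x - l • y)‖
      ≤ ‖((l + s) / (2 * l)) • (x + l • y)‖ + ‖((l - s) / (2 * l)) • (x - l • y)‖ :=
        norm_add_le _ _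
    _ = (l + s) / (2 * l) * ‖x + l • y‖ + (l - s) / (2 * l) * ‖x - l • y‖ := by
        rw [norm_smul, norm_smul, Real.norm_of_nonneg ha, Real.norm_of_nonneg hb]
    _ ≤ (l + s) / (2 * l) * max ‖x + l • y‖ ‖x - l • y‖
          + (l - s) / (2 * l) * max ‖x + l • y‖ ‖x - l • y‖ :=
        add_le_add (mul_le_mul_of_nonneg_left (le_max_left _ _) ha)
          (mul_le_mul_of_nonneg_left (le_max_right _ _) hb)
    _ = max ‖x + l • y‖ ‖x - l • y‖ := by rw [← add_mul, hab, one_mul]

/-- The key geometric estimate: in a space with `MaxMid`, if the vectors `x ± z i` all have norm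
at most `D * s`, the `z i` are `2 s`-separated and `‖x‖ ≥ s`, then
`‖x‖² + s²/4 ≤ (D s)²`. -/
theorem midpoint_edge_bound (hX : MaxMid X) (x : X) (s D : ℝ) (hs : 0 < s) (hxs : s ≤ ‖x‖)
    (z : ℕ → X) (h1 : ∀ i, ‖x + z i‖ ≤ D * s) (h2 : ∀ i, ‖x - z i‖ ≤ D * s)
    (h3 : ∀ i j, i ≠ j → 2 * s ≤ ‖z i - z j‖) :
    ‖x‖ ^ 2 + s ^ 2 / 4 ≤ (D * s) ^ 2 := by
  set r := ‖x‖ with hr_def
  have hr : 0 < r := lt_of_lt_of_le hs hxs
  have hsqrt : Real.sqrt (r ^ 2 + s ^ 2 / 4) ≤ D * s := by
    apply le_of_forall_pos_le_add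
    intro ε hε
    -- parameters
    set δ := min (s / 2) (ε / 4) with hδ_def
    have hδ : 0 < δ := lt_min (by positivity) (by positivity)
    have hδs : δ < s := lt_of_le_of_lt (min_le_left _ _) (by linarith)
    have hδε : 2 * δ ≤ ε / 2 := by
      have := min_le_right (s / 2) (ε / 4)
      linarith
    set η := ε / (2 * r) with hη_def
    have hη : 0 < η := by positivity
    have hηr : η * r = ε / 2 := by
      rw [hη_def]; field_simp
    set t := s / r with ht_def
    have ht0 : 0 < t := by positivity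
    have ht1 : t ≤ 1 := by
      rw [ht_def, div_le_one hr]; exact hxs
    have htr : t * r = s := by
      rw [ht_def]; field_simp
    have hx0 : ‖r⁻¹ • x‖ = 1 := by
      rw [norm_smul, norm_inv, Real.norm_of_nonneg hr.le, ← hr_def]
      exact inv_mul_cancel₀ hr.ne'
    obtain ⟨S, hSc, hSf, hS⟩ := hX t ht0 ht1 (r⁻¹ • x) hx0 η hη
    -- the sequence is bounded
    have hzb : ∀ i, ‖z i‖ ≤ D * s + r := by
      intro i
      have : z i = (x + z i) - x := by abel
      calc ‖z i‖ = ‖(x + z i) - x‖ := by rw [← this]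
        _ ≤ ‖x + z i‖ + ‖x‖ := norm_sub_le _ _
        _ ≤ D * s + r := add_le_add (h1 i) le_rfl
    obtain ⟨i, j, hij, y', hy'S, hy'⟩ :=
      exists_pair_close_mod S hSc hSf z (D * s + r) hzb (δ := 2 * δ) (by positivity)
    -- the half difference and its approximation in `S`
    set w := (1 / 2 : ℝ) • (z i - z j) with hw_def
    set y'' := (1 / 2 : ℝ) • y' with hy''_def
    have hy''S : y'' ∈ S := S.smul_mem _ hy'S
    have hwy : ‖w - y''‖ < δ := by
      have : w - y'' = (1 / 2 : ℝ) • (z i - z j - y') := by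
        rw [hw_def, hy''_def, ← smul_sub]
      rw [this, norm_smul, Real.norm_of_nonneg (by norm_num : (0 : ℝ) ≤ 1 / 2)]
      linarith
    have hw : s ≤ ‖w‖ := by
      rw [hw_def, norm_smul, Real.norm_of_nonneg (by norm_num : (0 : ℝ) ≤ 1 / 2)]
      have := h3 i j hij
      linarith
    have hxw1 : ‖x + w‖ ≤ D * s := by
      have : x + w = (1 / 2 : ℝ) • ((x + z i) + (x - z j)) := by
        rw [hw_def]
        have h2x : x = (1 / 2 : ℝ) • x + (1 / 2 : ℝ) • x := by
          rw [← add_smul]; norm_num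
        rw [smul_add, smul_add, smul_sub, smul_sub]
        nth_rewrite 1 [h2x]
        abel
      rw [this, norm_smul, Real.norm_of_nonneg (by norm_num : (0 : ℝ) ≤ 1 / 2)]
      have := norm_add_le (x + z i) (x - z j)
      have := h1 i
      have := h2 j
      linarith
    have hxw2 : ‖x - w‖ ≤ D * s := by
      have : x - w = (1 / 2 : ℝ) • ((x - z i) + (x + z j)) := by
        rw [hw_def]
        have h2x : x = (1 / 2 : ℝ) • x + (1 / 2 : ℝ) • x := by
          rw [← add_smul]; norm_num
        rw [smul_add, smul_add, smul_sub, smul_sub]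
        nth_rewrite 1 [h2x]
        abel
      rw [this, norm_smul, Real.norm_of_nonneg (by norm_num : (0 : ℝ) ≤ 1 / 2)]
      have := norm_add_le (x - z i) (x + z j)
      have := h2 i
      have := h1 j
      linarith
    -- norm of the approximating vector
    set l := ‖y''‖ with hl_def
    have hl : s - δ < l := by
      have : ‖w‖ ≤ ‖w - y''‖ + ‖y''‖ := by
        have := norm_add_le (w - y'') y''
        simpa using this
      linarith
    have hl0 : 0 < l := by linarith
    have hxy1 : ‖x + y''‖ ≤ D * s + δ := by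
      have : x + y'' = (x + w) - (w - y'') := by abel
      rw [this]
      have := norm_sub_le (x + w) (w - y'')
      linarith
    have hxy2 : ‖x - y''‖ ≤ D * s + δ := by
      have : x - y'' = (x - w) + (w - y'') := by abel
      rw [this]
      have := norm_add_le (x - w) (w - y'')
      linarith
    -- the unit vector
    set y := l⁻¹ • y'' with hy_def
    have hyS : y ∈ S := S.smul_mem _ hy''S
    have hy1 : ‖y‖ = 1 := by
      rw [hy_def, norm_smul, norm_inv, Real.norm_of_nonneg hl0.le, ← hl_def]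
      exact inv_mul_cancel₀ hl0.ne'
    have hly : l • y = y'' := by
      rw [hy_def, smul_smul, mul_inv_cancel₀ hl0.ne', one_smul]
    have hmax : max ‖x + s • y‖ ‖x - s • y‖ ≤ D * s + 2 * δ := by
      rcases le_or_gt s l with hsl | hsl
      · have e1 := norm_add_smul_le_max x y hs.le hsl hl0
        have e2 := norm_add_smul_le_max x (-y) hs.le hsl hl0
        simp only [smul_neg, ← sub_eq_add_neg, sub_neg_eq_add] at e2
        rw [hly] at e1 e2
        have hM : max ‖x + y''‖ ‖x - y''‖ ≤ D * s + δ := max_le hxy1 hxy2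
        have hM' : max ‖x - y''‖ ‖x + y''‖ ≤ D * s + δ := max_le hxy2 hxy1
        apply max_le <;> linarith
      · have e1 : x + s • y = (x + y'') + (s - l) • y := by
          rw [← hly, sub_smul]; abel
        have e2 : x - s • y = (x - y'') - (s - l) • y := by
          rw [← hly, sub_smul]; abel
        have hn : ‖(s - l) • y‖ = s - l := by
          rw [norm_smul, hy1, mul_one, Real.norm_of_nonneg (by linarith)]
        apply max_le
        · rw [e1]
          have := norm_add_le (x + y'') ((s - l) • y)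
          linarith
        · rw [e2]
          have := norm_sub_le (x - y'') ((s - l) • y)
          linarith
    -- apply the modulus
    have hmod := hS y hyS hy1
    have hts : t = r⁻¹ * s := by
      rw [ht_def, div_eq_inv_mul]
    have e1 : r⁻¹ • x + t • y = r⁻¹ • (x + s • y) := by
      rw [hts, mul_smul, smul_add]
    have e2 : r⁻¹ • x - t • y = r⁻¹ • (x - s • y) := by
      rw [hts, mul_smul, smul_sub]
    rw [e1, e2, norm_smul, norm_smul, norm_inv, Real.norm_of_nonneg hr.le] at hmod
    have hmax' : max (r⁻¹ * ‖x + s • y‖) (r⁻¹ * ‖x - s • y‖) ≤ r⁻¹ * (D * s + 2 * δ) := by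
      have hrinv : 0 ≤ r⁻¹ := inv_nonneg.mpr hr.le
      exact max_le (mul_le_mul_of_nonneg_left ((le_max_left _ _).trans hmax) hrinv)
        (mul_le_mul_of_nonneg_left ((le_max_right _ _).trans hmax) hrinv)
    have h4 : Real.sqrt (1 + t ^ 2 / 4) - η ≤ r⁻¹ * (D * s + 2 * δ) := by linarith
    have h5 : r * Real.sqrt (1 + t ^ 2 / 4) ≤ D * s + 2 * δ + η * r := by
      have := mul_le_mul_of_nonneg_left h4 hr.le
      rw [mul_sub, ← mul_assoc, mul_inv_cancel₀ hr.ne', one_mul] at this
      linarith
    have h6 : r * Real.sqrt (1 + t ^ 2 / 4) = Real.sqrt (r ^ 2 + s ^ 2 / 4) := by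
      have : r ^ 2 + s ^ 2 / 4 = r ^ 2 * (1 + t ^ 2 / 4) := by
        rw [← htr]; ring
      rw [this, Real.sqrt_mul (sq_nonneg r), Real.sqrt_sq hr.le]
    rw [h6] at h5
    linarith
  have h0 : 0 ≤ r ^ 2 + s ^ 2 / 4 := by positivity
  calc r ^ 2 + s ^ 2 / 4 = Real.sqrt (r ^ 2 + s ^ 2 / 4) ^ 2 := (Real.sq_sqrt h0).symm
    _ ≤ (D * s) ^ 2 := pow_le_pow_left₀ (Real.sqrt_nonneg _) hsqrt 2

/-- Main induction, for maps with a fixed scale `s`. -/
theorem diamond_aux (hX : MaxMid X) : ∀ (k : ℕ) (f : DiamondVertex k → X) (D s : ℝ), 0 < s →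
    (∀ u v : DiamondVertex k, s * ((diamondGraph k).dist u v : ℝ) ≤ ‖f u - f v‖ ∧
      ‖f u - f v‖ ≤ D * s * ((diamondGraph k).dist u v : ℝ)) →
    1 + (k : ℝ) / 4 ≤ D ^ 2
  | 0, f, D, s, hs, hf => by
      have h := hf (diamondSrc 0 ()) (diamondTgt 0 ())
      have hd := diamond_dist_src_tgt 0 ()
      rw [hd] at h
      obtain ⟨h1, h2⟩ := h
      have hD : 1 ≤ D := by
        by_contra hlt
        rw [not_le] at hlt
        have : D * s < 1 * s := mul_lt_mul_of_pos_right hlt hs
        simp only [Nat.cast_one, mul_one, one_mul] at h1 h2 this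
        linarith
      simp only [Nat.cast_zero, zero_div, add_zero]
      nlinarith
  | k + 1, f, D, s, hs, hf => by
      -- the bound along old edges
      have hedge : ∀ e : DiamondEdge k,
          ‖f (Sum.inl (diamondSrc k e)) - f (Sum.inl (diamondTgt k e))‖ ^ 2
            ≤ (2 * s) ^ 2 * (D ^ 2 - 1 / 4) := by
        intro e
        set a := f (Sum.inl (diamondSrc k e)) with ha_def
        set b := f (Sum.inl (diamondTgt k e)) with hb_def
        set x := (1 / 2 : ℝ) • (a - b) with hx_def
        set z : ℕ → X := fun i => f (Sum.inr (e, i)) - (1 / 2 : ℝ) • (a + b) with hz_def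
        have hnx : ‖x‖ = (1 / 2) * ‖a - b‖ := by
          rw [hx_def, norm_smul, Real.norm_of_nonneg (by norm_num : (0 : ℝ) ≤ 1 / 2)]
        have hx : s ≤ ‖x‖ := by
          have h := (hf (Sum.inl (diamondSrc k e)) (Sum.inl (diamondTgt k e))).1
          have hd : (2 : ℝ) ≤ ((diamondGraph (k + 1)).dist (Sum.inl (diamondSrc k e))
              (Sum.inl (diamondTgt k e)) : ℝ) := by
            exact_mod_cast diamond_two_le_dist_inl_src_inl_tgt k e
          have : s * 2 ≤ ‖a - b‖ := le_trans (mul_le_mul_of_nonneg_left hd hs.le) h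
          rw [hnx]; linarith
        have h1 : ∀ i, ‖x + z i‖ ≤ D * s := by
          intro i
          have e1 : x + z i = f (Sum.inr (e, i)) - b := by
            simp only [hx_def, hz_def]; module
          have h := (hf (Sum.inr (e, i)) (Sum.inl (diamondTgt k e))).2
          rw [diamond_dist_inr_inl_tgt] at h
          rw [e1]
          simpa using h
        have h2 : ∀ i, ‖x - z i‖ ≤ D * s := by
          intro i
          have e1 : x - z i = a - f (Sum.inr (e, i)) := by
            simp only [hx_def, hz_def]; module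
          have h := (hf (Sum.inl (diamondSrc k e)) (Sum.inr (e, i))).2
          rw [diamond_dist_inl_src_inr] at h
          rw [e1]
          simpa using h
        have h3 : ∀ i j, i ≠ j → 2 * s ≤ ‖z i - z j‖ := by
          intro i j hij
          have e1 : z i - z j = f (Sum.inr (e, i)) - f (Sum.inr (e, j)) := by
            simp only [hz_def]; abel
          have h := (hf (Sum.inr (e, i)) (Sum.inr (e, j))).1
          have hd : (2 : ℝ) ≤ ((diamondGraph (k + 1)).dist (Sum.inr (e, i))
              (Sum.inr (e, j)) : ℝ) := by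
            exact_mod_cast diamond_two_le_dist_inr_inr k e hij
          rw [e1]
          have : s * 2 ≤ ‖f (Sum.inr (e, i)) - f (Sum.inr (e, j))‖ :=
            le_trans (mul_le_mul_of_nonneg_left hd hs.le) h
          linarith
        have key := midpoint_edge_bound hX x s D hs hx z h1 h2 h3
        rw [hnx] at key
        nlinarith
      set D' := Real.sqrt (D ^ 2 - 1 / 4) with hD'_def
      have hadj : ∀ u v, (diamondGraph k).Adj u v →
          ‖f (Sum.inl u) - f (Sum.inl v)‖ ≤ D' * (2 * s) := by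
        have hsrc : ∀ e : DiamondEdge k,
            ‖f (Sum.inl (diamondSrc k e)) - f (Sum.inl (diamondTgt k e))‖ ≤ D' * (2 * s) := by
          intro e
          have h := hedge e
          have h2s : (0 : ℝ) ≤ 2 * s := by positivity
          have : D' * (2 * s) = Real.sqrt ((2 * s) ^ 2 * (D ^ 2 - 1 / 4)) := by
            rw [Real.sqrt_mul (sq_nonneg _), Real.sqrt_sq h2s, mul_comm]
          rw [this]
          exact Real.le_sqrt_of_sq_le h
        intro u v huv
        rw [diamond_adj_iff] at huv
        obtain ⟨e, ⟨h1, h2⟩ | ⟨h1, h2⟩⟩ := huv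
        · rw [← h1, ← h2]; exact hsrc e
        · rw [← h1, ← h2, norm_sub_rev]; exact hsrc e
      have hIH := diamond_aux hX k (fun u => f (Sum.inl u)) D' (2 * s) (by positivity) (by
        intro u v
        constructor
        · have h := (hf (Sum.inl u) (Sum.inl v)).1
          have hd : (2 : ℝ) * ((diamondGraph k).dist u v : ℝ) ≤
              ((diamondGraph (k + 1)).dist (Sum.inl u) (Sum.inl v) : ℝ) := by
            exact_mod_cast diamond_two_mul_dist_le k u v
          have := mul_le_mul_of_nonneg_left hd hs.le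
          linarith
        · obtain ⟨p, hp⟩ := (diamond_connected k).exists_walk_length_eq_dist u v
          have := walk_norm_le (fun u => f (Sum.inl u)) (D' * (2 * s)) hadj p
          rw [hp] at this
          exact this)
      rcases le_or_gt 0 (D ^ 2 - 1 / 4) with hnn | hneg
      · rw [hD'_def, Real.sq_sqrt hnn] at hIH
        push_cast
        linarith
      · rw [hD'_def, Real.sqrt_eq_zero_of_nonpos hneg.le] at hIH
        have : (0 : ℝ) ≤ (k : ℝ) / 4 := by positivity
        nlinarith

end Analytic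

/-- **Diamond distortion bound.**  In a real Banach space whose maximum-based midpoint modulus
at every `t ∈ (0, 1]` is at least `√(1 + t²/4) - 1`, every map of the depth-`k` countably
branching diamond of distortion at most `D` has `1 + k/4 ≤ D²`. -/
theorem diamond_distortion (E : RealBanach)
    (hmax : ∀ t : ℝ, 0 < t → t ≤ 1 →
      E.MaxMidpointModulusGE E.norm t (Real.sqrt (1 + t ^ 2 / 4) - 1)) :
    ∀ (k : ℕ) (f : DiamondVertex k → E.X) (D : ℝ), E.HasDistortionLE k f D →
      1 + (k : ℝ) / 4 ≤ D ^ 2 := by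
  let _ := E.normed
  let _ := E.space
  have hX : MaxMid E.X := by
    intro t ht0 ht1 x hx η hη
    obtain ⟨F, ⟨S, rfl, hSc, hSf⟩, hF⟩ := hmax t ht0 ht1 x hx η hη
    exact ⟨S, hSc, hSf, fun y hy hy1 => hF y hy hy1⟩
  intro k f D hfD
  obtain ⟨s, hs, hf⟩ := hfD
  exact diamond_aux hX k f D s hs hf

end Crest.Agent.Helper52
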