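import Mathlib

/-!
# Farthest points and slices in finite-dimensional inner product spaces

Support module for row 125 (package [D], Lemma A of S0167).  Everything here is plain
finite-dimensional Euclidean geometry:

* `farthest_exposed`: a farthest point `q` of `K` from `p` is strongly exposed by `q - p`;
* `exists_farthest`: compact nonempty sets have farthest points;
* `mem_closure_convexHull_farthest`: every point of a compact set is in the closed convex
  hull of the farthest points of that set;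
* `exists_slices_near`: the lemma requested by the row-125 coordinator: for a bounded set `C`,
  a point `c₀ ∈ C` and `δ > 0` there are finitely many slices of `C` (given by inner products)
  and convex weights such that every choice of points in the slices has its convex
  combination `δ`-close to `c₀`.
-/

namespace Crest.Agent.Helper52

/-- A farthest point `q` of `K` from `p` is strongly exposed by the functional `⟪q - p, ·⟫`. -/
theorem farthest_exposed {V : Type*} [NormedAddCommGroup V] [InnerProductSpace ℝ V]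
    {K : Set V} {p q : V} (hq : ∀ k ∈ K, ‖k - p‖ ≤ ‖q - p‖) {k : V} (hk : k ∈ K) :
    ‖k - q‖ ^ 2 ≤ 2 * (inner ℝ (q - p) q - inner ℝ (q - p) k) := by
  have h1 := hq k hk
  have h2 : ‖k - p‖ ^ 2 ≤ ‖q - p‖ ^ 2 := pow_le_pow_left₀ (norm_nonneg _) h1 2
  have h3 : k - p = (k - q) + (q - p) := by abel
  rw [h3, norm_add_sq_real] at h2
  have h4 : inner ℝ (k - q) (q - p) = inner ℝ (q - p) k - inner ℝ (q - p) q := by
    rw [real_inner_comm, inner_sub_right]
  linarith

/-- Compact nonempty sets have farthest points from any given point. -/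
theorem exists_farthest {V : Type*} [NormedAddCommGroup V]
    {K : Set V} (hK : IsCompact K) (hne : K.Nonempty) (p : V) :
    ∃ q ∈ K, ∀ k ∈ K, ‖k - p‖ ≤ ‖q - p‖ := by
  obtain ⟨q, hq, hmax⟩ := hK.exists_isMaxOn hne (f := fun k => ‖k - p‖)
    ((continuous_id.sub continuous_const).norm.continuousOn)
  exact ⟨q, hq, fun k hk => hmax hk⟩

/-- Every point of a compact subset `K` of a finite-dimensional inner product space lies in the
closed convex hull of the farthest points of `K`. -/
theorem mem_closure_convexHull_farthest {V : Type*} [NormedAddCommGroup V]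
    [InnerProductSpace ℝ V] [FiniteDimensional ℝ V]
    {K : Set V} (hK : IsCompact K) {c₀ : V} (hc₀ : c₀ ∈ K) :
    c₀ ∈ closure (convexHull ℝ {q | q ∈ K ∧ ∃ p : V, ∀ k ∈ K, ‖k - p‖ ≤ ‖q - p‖}) := by
  by_contra hnot
  obtain ⟨f, u, hf, hu⟩ := geometric_hahn_banach_closed_point
    (convex_convexHull ℝ _).closure isClosed_closure hnot
  have hcomp : CompleteSpace V := FiniteDimensional.complete ℝ V
  obtain ⟨a, ha⟩ : ∃ a : V, ∀ x, f x = inner ℝ a x :=
    ⟨(InnerProductSpace.toDual ℝ V).symm f, fun x => InnerProductSpace.toDual_symm_apply.symm⟩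
  obtain ⟨M, hM⟩ := hK.isBounded.exists_norm_le
  have hgap : 0 < f c₀ - u := by linarith
  have hM0 : 0 ≤ M := le_trans (norm_nonneg _) (hM c₀ hc₀)
  obtain ⟨R, hRpos, hR⟩ : ∃ R : ℝ, 0 < R ∧ R * (f c₀ - u) = M ^ 2 + 1 := by
    refine ⟨(M ^ 2 + 1) / (f c₀ - u), by positivity, ?_⟩
    field_simp
  obtain ⟨q, hqK, hq⟩ := exists_farthest hK ⟨c₀, hc₀⟩ (-(R • a))
  have hqF : q ∈ closure (convexHull ℝ {q | q ∈ K ∧ ∃ p : V, ∀ k ∈ K, ‖k - p‖ ≤ ‖q - p‖}) :=
    subset_closure (subset_convexHull ℝ _ ⟨hqK, _, hq⟩)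
  have h1 := hf q hqF
  have h2 := hq c₀ hc₀
  have h3 : ‖c₀ - -(R • a)‖ ^ 2 ≤ ‖q - -(R • a)‖ ^ 2 := pow_le_pow_left₀ (norm_nonneg _) h2 2
  rw [sub_neg_eq_add, sub_neg_eq_add, norm_add_sq_real, norm_add_sq_real, inner_smul_right,
    inner_smul_right, real_inner_comm a c₀, real_inner_comm a q, ← ha, ← ha] at h3
  have h4 : ‖q‖ ^ 2 ≤ M ^ 2 := pow_le_pow_left₀ (norm_nonneg _) (hM q hqK) 2
  have h5 : 0 ≤ ‖c₀‖ ^ 2 := sq_nonneg _
  have h6 : R * (f c₀ - u) ≤ R * (f c₀ - f q) :=
    mul_le_mul_of_nonneg_left (by linarith) hRpos.le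
  nlinarith

/-- **Slices lemma.** For a bounded subset `C` of a finite-dimensional inner product space, a
point `c₀ ∈ C` and `δ > 0`, there are finitely many slices
`{c ∈ C | m j - α < ⟪a j, c⟫}` of `C` (each `m j` being the supremum of `⟪a j, ·⟫` on `C`) and
convex weights `lam j` such that every selection `c j` of points of the slices satisfies
`‖∑ j, lam j • c j - c₀‖ < δ`. -/
theorem exists_slices_near {V : Type*} [NormedAddCommGroup V] [InnerProductSpace ℝ V]
    [FiniteDimensional ℝ V]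
    (C : Set V) (hC : Bornology.IsBounded C) (c₀ : V) (hc₀ : c₀ ∈ C) {δ : ℝ} (hδ : 0 < δ) :
    ∃ (k : ℕ) (a : Fin k → V) (m : Fin k → ℝ) (lam : Fin k → ℝ) (α : ℝ), 0 < α ∧
      (∀ j, 0 ≤ lam j) ∧ ∑ j, lam j = 1 ∧
      (∀ j, ∀ c ∈ C, inner ℝ (a j) c ≤ m j) ∧
      (∀ j, ∀ β > 0, ∃ c ∈ C, m j - β < inner ℝ (a j) c) ∧
      ∀ c : Fin k → V, (∀ j, c j ∈ C ∧ m j - α < inner ℝ (a j) (c j)) →
        ‖∑ j, lam j • c j - c₀‖ < δ := by
  have hprop : ProperSpace V := FiniteDimensional.proper ℝ V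
  have hK : IsCompact (closure C) := hC.isCompact_closure
  have hc₀K : c₀ ∈ closure C := subset_closure hc₀
  have hmem := mem_closure_convexHull_farthest hK hc₀K
  obtain ⟨y, hy, hyd⟩ := Metric.mem_closure_iff.1 hmem (δ / 2) (by positivity)
  obtain ⟨ι, hι, w, z, hw0, hw1, hz, hsum⟩ := mem_convexHull_iff_exists_fintype.1 hy
  have e : Fin (Fintype.card ι) ≃ ι := (Fintype.equivFin ι).symm
  choose p hp using fun i => (hz i).2
  have hzK : ∀ i, z i ∈ closure C := fun i => (hz i).1
  have hexp : ∀ i, ∀ c ∈ C,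
      ‖c - z i‖ ^ 2 ≤ 2 * (inner ℝ (z i - p i) (z i) - inner ℝ (z i - p i) c) :=
    fun i c hc => farthest_exposed (hp i) (subset_closure hc)
  refine ⟨Fintype.card ι, fun j => z (e j) - p (e j),
    fun j => inner ℝ (z (e j) - p (e j)) (z (e j)), fun j => w (e j), δ ^ 2 / 8, by positivity,
    fun j => hw0 _, ?_, ?_, ?_, ?_⟩
  · rw [← hw1]
    exact Equiv.sum_comp e w
  · intro j c hc
    have h := hexp (e j) c hc
    nlinarith [sq_nonneg ‖c - z (e j)‖]
  · intro j β hβ
    have hpos : 0 < β / (‖z (e j) - p (e j)‖ + 1) := by positivity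
    obtain ⟨c, hc, hcd⟩ := Metric.mem_closure_iff.1 (hzK (e j)) _ hpos
    refine ⟨c, hc, ?_⟩
    have h1 : inner ℝ (z (e j) - p (e j)) (z (e j)) - inner ℝ (z (e j) - p (e j)) c
        = inner ℝ (z (e j) - p (e j)) (z (e j) - c) := by
      rw [inner_sub_right]
    have h2 : inner ℝ (z (e j) - p (e j)) (z (e j) - c)
        ≤ ‖z (e j) - p (e j)‖ * ‖z (e j) - c‖ := real_inner_le_norm _ _
    rw [dist_eq_norm] at hcd
    have h3 : ‖z (e j) - p (e j)‖ * ‖z (e j) - c‖
        ≤ (‖z (e j) - p (e j)‖ + 1) * ‖z (e j) - c‖ :=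
      mul_le_mul_of_nonneg_right (by linarith) (norm_nonneg _)
    have h4 : (‖z (e j) - p (e j)‖ + 1) * ‖z (e j) - c‖
        < (‖z (e j) - p (e j)‖ + 1) * (β / (‖z (e j) - p (e j)‖ + 1)) :=
      mul_lt_mul_of_pos_left hcd (by positivity)
    have h5 : (‖z (e j) - p (e j)‖ + 1) * (β / (‖z (e j) - p (e j)‖ + 1)) = β := by
      field_simp
    linarith
  · intro c hc
    have hclose : ∀ j, ‖c j - z (e j)‖ ≤ δ / 2 := by
      intro j
      have h := hexp (e j) (c j) (hc j).1
      have h' := (hc j).2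
      have h2 : ‖c j - z (e j)‖ ^ 2 ≤ (δ / 2) ^ 2 := by nlinarith
      exact abs_le_of_sq_le_sq' h2 (by positivity) |>.2
    have hsum' : ∑ j, w (e j) • z (e j) = y := by
      rw [← hsum]
      exact Equiv.sum_comp e (fun i => w i • z i)
    have hdecomp : ∑ j, w (e j) • c j - c₀
        = ∑ j, w (e j) • (c j - z (e j)) + (y - c₀) := by
      rw [← hsum']
      simp only [smul_sub, Finset.sum_sub_distrib]
      abel
    have hfirst : ‖∑ j, w (e j) • (c j - z (e j))‖ ≤ δ / 2 := by
      calc ‖∑ j, w (e j) • (c j - z (e j))‖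
          ≤ ∑ j, ‖w (e j) • (c j - z (e j))‖ := norm_sum_le _ _
        _ ≤ ∑ j, w (e j) * (δ / 2) := by
            refine Finset.sum_le_sum fun j _ => ?_
            rw [norm_smul, Real.norm_of_nonneg (hw0 _)]
            exact mul_le_mul_of_nonneg_left (hclose j) (hw0 _)
        _ = δ / 2 := by
            rw [← Finset.sum_mul, Equiv.sum_comp e w, hw1, one_mul]
    have hsecond : ‖y - c₀‖ < δ / 2 := by
      rw [← dist_eq_norm, dist_comm]
      exact hyd
    calc ‖∑ j, w (e j) • c j - c₀‖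
        = ‖∑ j, w (e j) • (c j - z (e j)) + (y - c₀)‖ := by rw [hdecomp]
      _ ≤ ‖∑ j, w (e j) • (c j - z (e j))‖ + ‖y - c₀‖ := norm_add_le _ _
      _ < δ := by linarith

end Crest.Agent.Helper52
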